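import Mathlib

/-! # P199 (Kurosh problem for division rings): shared definitions.
See notes/P199.md for the whole proof. -/

namespace Vale.Agent.P199

open MvPolynomial

noncomputable section

/-- Polynomial ring over the rationals. -/
abbrev Pol (σ : Type) : Type := MvPolynomial σ ℚ

section Graded

variable {σ M : Type} [AddCommMonoid M]

/-- Weighted homogeneous component. -/
abbrev cmp (w : σ → M) (D : M) : Pol σ →ₗ[ℚ] Pol σ := weightedHomogeneousComponent w D

/-- Weighted homogeneity. -/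
abbrev Hg (w : σ → M) (f : Pol σ) (D : M) : Prop := IsWeightedHomogeneous w f D

/-- Graded ideal. -/
def Gr (w : σ → M) (I : Ideal (Pol σ)) : Prop := ∀ f ∈ I, ∀ D, cmp w D f ∈ I

/-- The quotient by `I` is generated by the variables in `τ`. -/
def Gen (τ : Finset σ) (I : Ideal (Pol σ)) : Prop :=
  ∀ f, ∃ g ∈ supported ℚ (τ : Set σ), f - g ∈ I

/-- The variables in `Y` are algebraically independent modulo `I`. -/
def Indep (I : Ideal (Pol σ)) (Y : Finset σ) : Prop :=
  ∀ f ∈ supported ℚ (Y : Set σ), f ∈ I → f = 0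

/-- Codimension at least `c` relative to the variables `τ`. -/
def Bd (τ : Finset σ) (I : Ideal (Pol σ)) (c : ℕ) : Prop :=
  ∀ Y ⊆ τ, Indep I Y → Y.card + c ≤ τ.card

/-- The monomials with exponent in `𝓜` form a basis of the quotient by `I`. -/
def MB (I : Ideal (Pol σ)) (𝓜 : Set (σ →₀ ℕ)) : Prop :=
  (∀ f : Pol σ, (f.support : Set (σ →₀ ℕ)) ⊆ 𝓜 → f ∈ I → f = 0) ∧
    ∀ f : Pol σ, ∃ g : Pol σ, (g.support : Set (σ →₀ ℕ)) ⊆ 𝓜 ∧ f - g ∈ I

/-- Polynomials all of whose monomials have `u`-weight at least `k`. -/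
def Ord (u : σ → ℕ) (k : ℕ) : Ideal (Pol σ) where
  carrier := {f | ∀ d ∈ f.support, k ≤ Finsupp.weight u d}
  add_mem' := by
    classical
    intro a b ha hb d hd
    rcases Finset.mem_union.1 (support_add hd) with h | h
    · exact ha d h
    · exact hb d h
  zero_mem' := by simp
  smul_mem' := by
    classical
    intro c f hf d hd
    obtain ⟨a, -, b, hb, rfl⟩ := Finset.mem_add.1 (support_mul c f hd)
    rw [map_add]
    exact (hf b hb).trans (Nat.le_add_left _ _)

/-- The ideal of lowest `u`-forms of `I`. -/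
def inI (u : σ → ℕ) (I : Ideal (Pol σ)) : Ideal (Pol σ) :=
  Ideal.span {f | ∃ r, Hg u f r ∧ ∃ i ∈ I, i - f ∈ Ord u (r + 1)}

end Graded

section Hilbert

variable {σ σ' ι : Type}

/-- Coefficient ring for the classes. -/
abbrev R2 (ι : Type) : Type := MvPolynomial ι (ZMod 2)

/-- Multigraded Hilbert function. -/
def hf (w : σ → ι →₀ ℕ) (I : Ideal (Pol σ)) (D : ι →₀ ℕ) : ℕ :=
  Module.finrank ℚ
    ((weightedHomogeneousSubmodule ℚ w D).map (Ideal.Quotient.mkₐ ℚ I).toLinearMap)

/-- Multigraded Hilbert series modulo 2. -/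
def HS (w : σ → ι →₀ ℕ) (I : Ideal (Pol σ)) : MvPowerSeries ι (ZMod 2) :=
  fun D => (hf w I D : ZMod 2)

/-- `K` is the K-polynomial of `I` relative to the variables `τ`. -/
def IsK (w : σ → ι →₀ ℕ) (τ : Finset σ) (I : Ideal (Pol σ)) (K : R2 ι) : Prop :=
  (K : MvPowerSeries ι (ZMod 2)) = HS w I * ∏ v ∈ τ, (1 - MvPowerSeries.monomial (w v) 1)

/-- The K-polynomial. -/
def Kp (w : σ → ι →₀ ℕ) (τ : Finset σ) (I : Ideal (Pol σ)) : R2 ι :=
  Classical.epsilon (IsK w τ I)

/-- The substitution `t i ↦ 1 + ω i * x`. -/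
def ev (ω : ι → R2 ι) : R2 ι →ₐ[ZMod 2] Polynomial (R2 ι) :=
  aeval fun i => 1 + Polynomial.C (ω i) * Polynomial.X

/-- The class in codimension `c`. -/
def cls (ω : ι → R2 ι) (w : σ → ι →₀ ℕ) (τ : Finset σ) (I : Ideal (Pol σ)) (c : ℕ) : R2 ι :=
  (ev ω (Kp w τ I)).coeff c

/-- The linear form of a degree. -/
def lin (ω : ι → R2 ι) (a : ι →₀ ℕ) : R2 ι := a.sum fun i k => (k : R2 ι) * ω i

/-- The invariant carried through the construction. -/
structure State (ω : ι → R2 ι) (w : σ → ι →₀ ℕ) (τ : Finset σ) (I : Ideal (Pol σ)) (c : ℕ) :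
    Prop where
  gr : Gr w I
  gen : Gen τ I
  bd : Bd τ I c
  ne : cls ω w τ I c ≠ 0

/-- Prime filtration from `I` up to `I'`. -/
inductive Filt (w : σ → ι →₀ ℕ) (I' : Ideal (Pol σ)) :
    Ideal (Pol σ) → List ((ι →₀ ℕ) × Ideal (Pol σ)) → Prop
  | nil : Filt w I' I' []
  | cons {I : Ideal (Pol σ)} {a : ι →₀ ℕ} {g : Pol σ} {L : List ((ι →₀ ℕ) × Ideal (Pol σ))} :
      Gr w I → Hg w g a → g ∈ I' → (I.colon {g}).IsPrime → Filt w I' (I ⊔ Ideal.span {g}) L →
        Filt w I' I ((a, I.colon {g}) :: L)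

/-- Product ideal on the disjoint union of the variables. -/
def prodI (I : Ideal (Pol σ)) (I' : Ideal (Pol σ')) : Ideal (Pol (σ ⊕ σ')) :=
  I.map (rename (R := ℚ) (Sum.inl : σ → σ ⊕ σ')) ⊔ I'.map (rename (R := ℚ) (Sum.inr : σ' → σ ⊕ σ'))

/-- Reduction of a degree modulo 2. -/
def red (D : ι →₀ ℕ) : ι → ZMod 2 := fun i => (D i : ZMod 2)

/-- Class weights. -/
def cw (w : σ → ι →₀ ℕ) : σ → ι → ZMod 2 := fun v => red (w v)

/-- The ideal generated by the `π i - 1`. -/
def pid (π : ι → σ) : Ideal (Pol σ) := Ideal.span (Set.range fun i => (X (π i) - 1 : Pol σ))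

/-- Dehomogenization of an ideal. -/
def flat (π : ι → σ) (I : Ideal (Pol σ)) : Ideal (Pol σ) := I ⊔ pid π

/-- A monomial in the `π i`. -/
def pw (π : ι → σ) (k : ι →₀ ℕ) : Pol σ := monomial (k.mapDomain π) 1

end Hilbert

section Length

/-- Length of a module after localizing at the prime `p`. -/
def len {R : Type} [CommRing R] (p : Ideal R) [p.IsPrime] (M : Type) [AddCommGroup M]
    [Module R M] : ℕ∞ :=
  Module.length (Localization.AtPrime p) (LocalizedModule p.primeCompl M)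

end Length

section Pauli

/-- Coordinates of the Pauli group. -/
abbrev Ix (r : ℕ) : Type := Fin r ⊕ Fin r

/-- The Pauli group modulo signs. -/
abbrev Gp (r : ℕ) : Type := Ix r → ZMod 2

/-- Row and column index of the matrices. -/
abbrev Cv (r : ℕ) : Type := Fin r → ZMod 2

/-- Square matrices of size `2 ^ r`. -/
abbrev Mat (r : ℕ) (B : Type) : Type := Matrix (Cv r) (Cv r) B

/-- The sign character. -/
def sg (x : ZMod 2) : ℚ := (-1) ^ x.val

variable {r : ℕ} {B : Type} [CommRing B] [Algebra ℚ B]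

/-- Translation part. -/
def pa (μ : Gp r) : Cv r := fun i => μ (Sum.inl i)

/-- Character part. -/
def pb (μ : Gp r) : Cv r := fun i => μ (Sum.inr i)

/-- The cocycle: `U μ * U ν = eps μ ν • U (μ + ν)`. -/
def eps (μ ν : Gp r) : ℚ := sg (pb μ ⬝ᵥ pa ν)

/-- The matrix `∑ y μ • U μ`, where `U (a, b) e_c = (-1) ^ (b ⬝ c) e_(c + a)`. -/
def pm (y : Gp r → B) : Mat r B :=
  Matrix.of fun c' c => ∑ b : Cv r, sg (b ⬝ᵥ c) • y (Sum.elim (c' - c) b)

/-- The Pauli coefficients of a matrix. -/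
def co (M : Mat r B) (μ : Gp r) : B :=
  ((2 : ℚ) ^ r)⁻¹ • ∑ c : Cv r, sg (pb μ ⬝ᵥ c) • M (c + pa μ) c

/-- Twisted convolution. -/
def conv (y z : Gp r → B) : Gp r → B :=
  fun l => ∑ μ, eps μ (l - μ) • (y μ * z (l - μ))

/-- Normalized trace, as a scalar matrix. -/
def mtr (M : Mat r B) : Mat r B := algebraMap B (Mat r B) (co M 0)

/-- A grading of `B` by the finite group `G`, given by its projectors. -/
structure Cls (G B : Type) [AddCommGroup G] [Fintype G] [CommRing B] [Algebra ℚ B] where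
  /-- the projectors -/
  c : G → B →ₗ[ℚ] B
  sum_c : ∀ b, ∑ μ, c μ b = b
  c_same : ∀ μ b, c μ (c μ b) = c μ b
  c_ne : ∀ μ ν b, μ ≠ ν → c μ (c ν b) = 0
  c_mul : ∀ μ ν a b, c μ a = a → c ν b = b → c (μ + ν) (a * b) = a * b
  c_one : c 0 1 = 1

/-- The degree zero part. -/
def Cls.zero {G : Type} [AddCommGroup G] [Fintype G] (κ : Cls G B) : Subalgebra ℚ B where
  carrier := {b | κ.c 0 b = b}
  mul_mem' := fun {a b} ha hb => by simpa using κ.c_mul 0 0 a b ha hb
  add_mem' := fun {a b} ha hb => by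
    simp only [Set.mem_ofPred_eq] at ha hb ⊢
    rw [map_add, ha, hb]
  algebraMap_mem' := fun q => by
    simp only [Set.mem_ofPred_eq]
    rw [Algebra.algebraMap_eq_smul_one, map_smul, κ.c_one]

/-- Graded ideal for a `Cls` grading. -/
def Cls.GrI {G : Type} [AddCommGroup G] [Fintype G] (κ : Cls G B) (J : Ideal B) : Prop :=
  ∀ f ∈ J, ∀ μ, κ.c μ f ∈ J

/-- The twisted product. -/
def Cls.star (κ : Cls (Gp r) B) (a b : B) : B :=
  ∑ μ, ∑ ν, eps μ ν • (κ.c μ a * κ.c ν b)

/-- `J` is completely prime for the twisted product. -/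
def Cls.TwPrime (κ : Cls (Gp r) B) (J : Ideal B) : Prop :=
  J ≠ ⊤ ∧ ∀ a b, κ.star a b ∈ J → a ∈ J ∨ b ∈ J

/-- The matrix `∑ f_μ • U μ`. -/
def Cls.mat (κ : Cls (Gp r) B) (f : B) : Mat r B := pm fun μ => κ.c μ f

/-- Matrices whose `μ`-th Pauli coefficient is homogeneous of class `μ`. -/
def Cls.InLam (κ : Cls (Gp r) B) (M : Mat r B) : Prop := ∀ μ, κ.c μ (co M μ) = co M μ

/-- Scalar matrices with entry of class zero. -/
def Cls.Zc (κ : Cls (Gp r) B) : Subalgebra ℚ (Mat r B) :=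
  κ.zero.map (IsScalarTower.toAlgHom ℚ B (Mat r B))

/-- The block of a row index. -/
def blk (T : Finset (Fin r)) (c : Cv r) : T → ZMod 2 := fun i => c i

/-- The subgroup `H` of block scalar Pauli matrices. -/
def InH (T : Finset (Fin r)) (μ : Gp r) : Prop := pa μ = 0 ∧ ∀ i ∉ T, pb μ i = 0

/-- The subgroup of block diagonal Pauli matrices. -/
def InP (T : Finset (Fin r)) (μ : Gp r) : Prop := ∀ i ∈ T, pa μ i = 0

open Classical in
/-- Eigenvalue of the `H`-part of `pm y` on a block. -/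
def lamb (T : Finset (Fin r)) (y : Gp r → B) (β : T → ZMod 2) : B :=
  ∑ μ with InH T μ, sg (∑ i : T, pb μ i * β i) • y μ

/-- Product of the differences with the other eigenvalues. -/
def dd {β : Type} [Fintype β] [DecidableEq β] (l : β → B) (b : β) : B :=
  ∏ b' ∈ Finset.univ.erase b, (l b - l b')

end Pauli

section Newton

variable {A : Type} [Ring A] [Algebra ℚ A]

/-- Elementary symmetric functions from power sums (Newton recursion). -/
def newt (p : ℕ → A) (k : ℕ) : A :=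
  Nat.strongRec (motive := fun _ => A)
    (fun k ih => if k = 0 then 1 else
      (k : ℚ)⁻¹ • ((-1) ^ (k + 1) * ∑ j : Fin k, (-1) ^ (j : ℕ) * ih j j.2 * p (k - j))) k

/-- The reduced characteristic polynomial of degree `m` of `a`, evaluated at `a`. -/
def chp (tr : A → A) (m : ℕ) (a : A) : A :=
  ∑ k ∈ Finset.range (m + 1), (-1) ^ k * newt (fun i => (m : A) * tr (a ^ i)) k * a ^ (m - k)

/-- Trace polynomial expressions in five generators. -/
inductive Expr : Type
  | gen : Fin 5 → Expr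
  | const : ℚ → Expr
  | add : Expr → Expr → Expr
  | mul : Expr → Expr → Expr
  | tr : Expr → Expr

/-- Evaluation of an expression. -/
def Expr.ev (t : A → A) (x : Fin 5 → A) : Expr → A
  | .gen g => x g
  | .const q => algebraMap ℚ A q
  | .add a b => a.ev t x + b.ev t x
  | .mul a b => a.ev t x * b.ev t x
  | .tr a => t (a.ev t x)

/-- A nonzero multiple of `a` lies in the `Z`-span of the `w j`. -/
def Sat (Z : Subalgebra ℚ A) {β : ℕ} (w : Fin β → A) (a : A) : Prop :=
  ∃ c ∈ Z, c ≠ 0 ∧ ∃ z : Fin β → A, (∀ j, z j ∈ Z) ∧ c * a = ∑ j, z j * w j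

end Newton

section Generic

/-- The variables: `π i` and the Pauli coefficients of five generic matrices. -/
abbrev Vr (r : ℕ) : Type := Ix r ⊕ (Fin 5 × Gp r)

/-- Fine weights of the variables. -/
def wv (r : ℕ) : Vr r → Ix r →₀ ℕ :=
  Sum.elim (fun i => Finsupp.single i 2)
    (fun s => Finsupp.equivFunOnFinite.symm fun i => (s.2 i).val + 2)

/-- The generic matrices. -/
def gx (r : ℕ) (g : Fin 5) : Mat r (Pol (Vr r)) := pm fun μ => X (Sum.inr (g, μ))

end Generic

end

end Vale.Agent.P199
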